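import Vale.Agent.P068.Repeated.Pack

/-!
Packing/covering partitions for families with many repetitions and small circuits or cuts.
-/

namespace Vale.Agent.Results.P068.RepeatedFamilies

open Set Cardinal Vale.Agent.P068.Repeated

theorem result :
    ∀ (α Θ : Type) (E : Set α) (M : Θ → Matroid α), Infinite Θ → (∀ i, (M i).E = E) →
      (∀ i, #{j // M j = M i} = #Θ) →
      (∀ i, (∀ C, (M i).IsCircuit C → #C ≤ #Θ) ∨ (M i).dual.Finitary ∨
        (∃ (A B : Matroid α) (h : Disjoint A.E B.E),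
          A.Finitary ∧ B.dual.Finitary ∧ M i = A.disjointSum B h) ∨
        ∀ C, (M i).IsCircuit C → #Θ < #C → ∀ X, C ⊆ X → X ⊆ E →
          ∃ e ∈ C, ∃ D ⊆ X, #D ≤ #Θ ∧ e ∉ (M i).closure (X \ D)) →
      ∃ (P C : Set α) (S I : Θ → Set α), P ∪ C = E ∧ Disjoint P C ∧
        (∀ i, S i ⊆ P ∧ ((M i).restrict P).closure (S i) = P) ∧
        (∀ i j, i ≠ j → Disjoint (S i) (S j)) ∧
        (∀ i, I i ⊆ C ∧ ((M i).dual.restrict C).dual.Indep (I i)) ∧
        (⋃ i, I i) = C := by
  intro α Θ E M _ hE hrep h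
  have hcut : ∀ i, SmallCuts (M i) Θ := fun i => by
    rcases h i with h | h | ⟨A, B, hAB, hA, hB, he⟩ | h
    · exact fun C hC hbig => absurd hbig (h C hC).not_gt
    · exact smallCuts_of_dual_finitary _
    · rw [he]
      exact smallCuts_disjointSum A B hAB
    · rwa [SmallCuts, hE i]
  let P : Set α := ⋃₀ {Q | Q ⊆ E ∧ Robust M Q}
  have hPE : P ⊆ E := sUnion_subset fun Q hQ => hQ.1
  have hP : Robust M P := Robust.sUnion fun Q hQ => hQ.2
  obtain ⟨S, hS, hdis, hspan⟩ := exists_packing hE hPE hP hcut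
  obtain ⟨I, hI, hind, hcov⟩ := exists_cover hE hrep hPE hP
    fun Q h1 h2 => subset_sUnion_of_mem ⟨h1, h2⟩
  refine ⟨P, E \ P, S, I, union_sdiff_cancel hPE, disjoint_sdiff_right,
    fun i => ⟨hS i, ?_⟩, hdis, fun i => ⟨hI i, ?_⟩, hcov⟩
  · have hPi : P ⊆ (M i).E := (hE i).symm ▸ hPE
    rw [Matroid.restrict_closure_eq _ (hS i) hPi]
    exact inter_eq_right.2 (hspan i)
  · have e : ((M i).dual.restrict (E \ P)).dual = (M i).contract P := by
      rw [← hE i, ← (M i).dual_ground, Matroid.restrict_compl]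
      rfl
    rw [e]
    exact hind i

end Vale.Agent.Results.P068.RepeatedFamilies
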