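import Vale.Agent.P068.Failure
import Vale.Agent.P068.PackingCovering

/-!
Conditional disproof of infinite matroid intersection and of packing/covering, on a countable
ground set, under the splitting hypothesis (in particular under the continuum hypothesis).
-/

namespace Vale.Agent.Results.P068.SplitCounterexample

open Set Cardinal Vale.Agent.P068

theorem result :
    ((∀ F : Set (Set ℕ), #F < continuum → (∀ S ∈ F, S.Infinite) →
        ∃ Z : Set ℕ, ∀ S ∈ F, (S ∩ Z).Infinite ∧ (S \ Z).Infinite) →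
      ∃ (α : Type) (M N : Matroid α), Countable α ∧ M.E = Set.univ ∧ N.E = Set.univ ∧
        (¬ ∃ J JM JN : Set α, M.Indep J ∧ N.Indep J ∧ JM ∪ JN = J ∧ Disjoint JM JN ∧
          M.closure JM ∪ N.closure JN = Set.univ) ∧
        (¬ ∃ P C S₁ S₂ I₁ I₂ : Set α, P ∪ C = Set.univ ∧ Disjoint P C ∧ Disjoint S₁ S₂ ∧
          S₁ ⊆ P ∧ (M.restrict P).closure S₁ = P ∧
          S₂ ⊆ P ∧ (N.dual.restrict P).closure S₂ = P ∧
          I₁ ⊆ C ∧ (M.dual.restrict C).dual.Indep I₁ ∧
          I₂ ⊆ C ∧ (N.dual.dual.restrict C).dual.Indep I₂ ∧ I₁ ∪ I₂ = C)) ∧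
    (continuum.{0} = ℵ₁ → ∀ F : Set (Set ℕ), #F < continuum → (∀ S ∈ F, S.Infinite) →
        ∃ Z : Set ℕ, ∀ S ∈ F, (S ∩ Z).Infinite ∧ (S \ Z).Infinite) := by
  refine ⟨fun h => ?_, fun h => splitHyp_of_ch h⟩
  obtain ⟨D⟩ := exists_blockData h
  exact ⟨_, D.M, D.N, inferInstance, rfl, rfl, D.no_intersection,
    fun hpc => D.no_intersection (intersection_of_packingCovering D.M D.N rfl rfl hpc)⟩

end Vale.Agent.Results.P068.SplitCounterexample
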