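import Mathlib

/-!
Packing/covering partitions for families of uniform matroids of any size.
-/

namespace Vale.Agent.Results.P068.UniformFamilies

open Set

theorem result :
    ∀ (α ι : Type) (E : Set α) (M : ι → Matroid α), (∀ i, (M i).E = E) →
      (∀ i X, X ⊆ E → (M i).Indep X ∨ (M i).Spanning X) →
      ∃ (P C : Set α) (S I : ι → Set α), P ∪ C = E ∧ Disjoint P C ∧
        (∀ i, S i ⊆ P ∧ ((M i).restrict P).closure (S i) = P) ∧
        (∀ i j, i ≠ j → Disjoint (S i) (S j)) ∧
        (∀ i, I i ⊆ C ∧ ((M i).dual.restrict C).dual.Indep (I i)) ∧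
        (⋃ i, I i) = C := by
  classical
  intro α ι E M hE hu
  let Good : Set (Set (ι × Set α)) :=
    {F | (∀ p ∈ F, (M p.1).IsBase p.2) ∧
      ∀ p ∈ F, ∀ q ∈ F, p ≠ q → p.1 ≠ q.1 ∧ Disjoint p.2 q.2}
  obtain ⟨F, hF⟩ : ∃ F, Maximal (· ∈ Good) F := by
    refine zorn_subset Good fun c hc hchain => ⟨⋃₀ c, ⟨?_, ?_⟩, fun s hs => subset_sUnion_of_mem hs⟩
    · rintro p ⟨s, hs, hp⟩
      exact (hc hs).1 p hp
    · rintro p ⟨s, hs, hp⟩ q ⟨t, ht, hq⟩ hne
      rcases hchain.total hs ht with h | h
      · exact (hc ht).2 p (h hp) q hq hne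
      · exact (hc hs).2 p hp q (h hq) hne
  obtain ⟨hb, hd⟩ := hF.prop
  by_cases hall : ∀ i, ∃ B, (i, B) ∈ F
  · choose B hB using hall
    refine ⟨E, ∅, B, fun _ => ∅, union_empty _, disjoint_empty _, fun i => ?_, fun i j h => ?_,
      fun i => ?_, iUnion_empty⟩
    · have h := hb _ (hB i)
      refine ⟨(hE i) ▸ h.subset_ground, ?_⟩
      rw [← hE i, Matroid.restrict_ground_eq_self]
      exact h.closure_eq
    · exact (hd _ (hB i) _ (hB j) (fun e => h (Prod.ext_iff.1 e).1)).2
    · exact ⟨subset_rfl, Matroid.empty_indep _⟩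
  · push Not at hall
    obtain ⟨k, hk⟩ := hall
    let U : Set α := ⋃ p ∈ F, p.2
    have hR : (M k).Indep (E \ U) := by
      by_contra hnot
      obtain ⟨B, hBb, hBR⟩ :=
        ((hu k _ sdiff_subset).resolve_left hnot).exists_isBase_subset
      have hdis : ∀ q ∈ F, Disjoint B q.2 := fun q hq =>
        disjoint_left.2 fun x hx hx' => (hBR hx).2 (mem_biUnion hq hx')
      have hgood : insert (k, B) F ∈ Good := by
        refine ⟨fun p hp => ?_, fun p hp q hq hne => ?_⟩
        · rcases hp with rfl | hp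
          · exact hBb
          · exact hb p hp
        · rcases hp with rfl | hp <;> rcases hq with rfl | hq
          · exact absurd rfl hne
          · exact ⟨fun e => hk q.2 (by simpa [show k = q.1 from e] using hq), hdis q hq⟩
          · exact ⟨fun e => hk p.2 (by rw [← (show p.1 = k from e)]; exact hp), (hdis p hp).symm⟩
          · exact hd p hp q hq hne
      exact hk B (hF.le_of_ge hgood (subset_insert _ _) (mem_insert _ _))
    let I : ι → Set α := fun i =>
      if i = k then E \ U else if h : ∃ B, (i, B) ∈ F then h.choose else ∅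
    have hI : ∀ i, (M i).Indep (I i) := fun i => by
      by_cases h1 : i = k
      · subst h1; simpa [I] using hR
      · by_cases h2 : ∃ B, (i, B) ∈ F
        · simpa [I, h1, h2] using (hb _ h2.choose_spec).indep
        · simp [I, h1, h2]
    refine ⟨∅, E, fun _ => ∅, I, empty_union _, empty_disjoint _, fun i => ⟨subset_rfl, ?_⟩,
      fun _ _ _ => empty_disjoint _, fun i => ⟨?_, ?_⟩, ?_⟩
    · exact subset_antisymm (Matroid.closure_subset_ground _ _) (empty_subset _)
    · exact hE i ▸ (hI i).subset_ground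
    · have hd' : (M i).dual.restrict E = (M i).dual :=
        Matroid.restrict_eq_self_iff.2 (hE i).symm
      rw [hd', Matroid.dual_dual]
      exact hI i
    · refine subset_antisymm (iUnion_subset fun i => hE i ▸ (hI i).subset_ground) fun x hx => ?_
      by_cases hxU : x ∈ U
      · obtain ⟨p, hp, hxp⟩ := mem_iUnion₂.1 hxU
        have hpk : p.1 ≠ k := fun e => hk p.2 (by rw [← e]; exact hp)
        have hex : ∃ B, (p.1, B) ∈ F := ⟨p.2, hp⟩
        refine mem_iUnion.2 ⟨p.1, ?_⟩
        have he : hex.choose = p.2 := by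
          by_contra hne
          exact (hd _ hex.choose_spec _ hp fun e => hne (Prod.ext_iff.1 e).2).1 rfl
        simp only [I, hpk, if_false, dif_pos hex, he]
        exact hxp
      · exact mem_iUnion.2 ⟨k, by simp [I, hx, hxU]⟩

end Vale.Agent.Results.P068.UniformFamilies
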